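import Mathlib

/-!
# P032: words of a two-pair centre whose plain ends all carry the same letter, finite part

Letters `0 = e`, `1 = f`, `2 = A`, `3 = C`.  Columns of six letters, neighbours different, `A` and `C`
not opposite.  Several letters may change at the same time; a letter `f` changes only into `e`, no
swap of neighbours except `A C`, and `A`, `C` are not available at opposite slots.  Then the column
stays in one of five classes, and the rotation changes the class (the classes were found by
helper492).
-/

namespace Vale.Agent.P032.H98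

/-- the class of a column, by its code in base four -/
def labN (c : ℕ) : ℕ :=
  Nat.land (Nat.shiftRight 0x90000080000090030000000000000000000000000000000000000000000000000000000001041000000000000000000000000000000001040000000001041000000000000000000090000880000000000000000000000000000000000000090090000080090090030000000090c30c80000000000000490090000480490090c30000000000000000000000000000000000000000000000000000000090c30c80000000000000490090000480000000000000000000000000000000000000090090000080090090030000000090c30c80000000000000490090000480490090c3000000000104100000000000000000000000000000000104000000000000000000000000000000000000000000000000000000000000000000000000000000000000000000000000000000000000000000000000000009000000008009000003000000000000000000000804800000000000000000000804000000000000000000000804800009000000408000000000000000000000000000000000000000000000000000000000000000000000000000000000000000000000000000000000000000000000000000000000000000000000000000000000000000000000000000000000000000000000000000000000000000000000000009000603608009209000208009209603000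000000000000000000000000009009000008009009003000000000000000000000000000000000000000000000000000000000000000009000603608009209000208000000000000000000000000009000603608009209000208009209603000000000000000000000000000009009000008009009003000000000000000000000804800000000000000000000804000000000000000000000000000000000000000000000000000000000000000000000000000000000000000000000000000000000104100000000000000082000000080082000104000000000904900104000904900000000000000104000904000000000904900104000904900082000000480000000000000000000000000000000804800000402000400000402804000000000000000000000000000000000000000000000000000000804904900000000904900000000000000000804904000000804904900000000904900000402000480000000000000000000000000000000000000000000000000000000000000000000000000000000000000000000000000000000000000000000000000000000000000000000000000000000000000000000000000000000000000000000000000000000000000000000000000002000804800002402000400002402804000000002104100000000000000082002000080082002104000000804904900104000904900000000000000104804904000000000000000000000000000000000000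0000000000000000000000000000000000000000000000000000000000000000000001001000000000000000880000000880880001000000000009009001000009009000000000000001000009000000000009009001000009009000880000004880000000000000000000000000000008008000004080004080004088000000000000000000000000000000000000000000000000000000008009009000000009009000000000000000008009000000008009009000000009009000004080004880000000000000000000000000080006006080082080002080082086000000000080c00c80000000000000480080000480480080c00000000000000000000000000000000000000000000000000000006086c06c80c80006c06c8048208000248000000000000000000000000000000000000000000000000000000000000000000000000000000000000000000000000000000000000000000000000000000000000000000000000000000000000000000000000000000000000000000000000000000000000 (3 * c)) 7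

/-- the pairs (letter before, letter after), code `4 a + b` -/
def prs : List ℕ := [0, 1, 2, 3, 4, 5, 8, 10, 11, 12, 14, 15]

/-- the possible pairs at the next slot -/
def nx (p : ℕ) : List ℕ :=
  ([[5, 10, 11, 14, 15], [8, 10, 11, 12, 14, 15], [4, 5, 11, 12, 15], [4, 5, 8, 10, 14], [2, 3, 10, 11, 14, 15], [0, 2, 3, 8, 10, 11, 12, 14, 15], [], [], [1, 3, 5, 14, 15], [], [0, 1, 3, 4, 5, 12, 15], [0, 1, 2, 4, 5, 12, 14], [1, 2, 5, 10, 11], [], [0, 1, 3, 4, 5, 8, 11], [0, 1, 2, 4, 5, 8, 10]] : List (List ℕ)).getD p []

/-- neighbours -/
def adB (p q : ℕ) : Bool :=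
  Nat.beq (Nat.land (Nat.shiftRight 0x537093b00000c265037903b0000c02a00000000dd0dcc0c45309830dd00cc20 (16 * p + q)) 1) 1

/-- opposite slots -/
def opB (p q : ℕ) : Bool :=
  Nat.beq (Nat.land (Nat.shiftRight 0x903b00330000903b003305370000053700000000dd3fdd3f903b0537dd3fdd3f (16 * p + q)) 1) 1

def codA (p0 p1 p2 p3 p4 p5 : ℕ) : ℕ :=
  p0 / 4 + 4 * (p1 / 4) + 16 * (p2 / 4) + 64 * (p3 / 4) + 256 * (p4 / 4) + 1024 * (p5 / 4)

def codB (p0 p1 p2 p3 p4 p5 : ℕ) : ℕ :=
  p0 % 4 + 4 * (p1 % 4) + 16 * (p2 % 4) + 64 * (p3 % 4) + 256 * (p4 % 4) + 1024 * (p5 % 4)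

def imp (b : Bool) (c : Bool) : Bool := match b with
  | true => c
  | false => true

/-- the check of the ties -/
def chk : Bool :=
  prs.all fun p0 => (nx p0).all fun p1 => (nx p1).all fun p2 => (nx p2).all fun p3 =>
    imp (opB p0 p3) ((nx p3).all fun p4 => imp (opB p1 p4) ((nx p4).all fun p5 =>
      imp (opB p2 p5) (imp (adB p5 p0)
        (Nat.beq (labN (codA p0 p1 p2 p3 p4 p5)) (labN (codB p0 p1 p2 p3 p4 p5))))))

theorem chk_true : chk = true := by decide +kernel

/-- the check of the rotation -/
def chkS : Bool :=
  [0, 1, 2, 3].all fun a => [0, 1, 2, 3].all fun b => [0, 1, 2, 3].all fun c =>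
    [0, 1, 2, 3].all fun d => imp (opB (5 * a) (5 * d)) ([0, 1, 2, 3].all fun e =>
      imp (opB (5 * b) (5 * e)) ([0, 1, 2, 3].all fun f =>
      imp (opB (5 * c) (5 * f)) (imp (adB (5 * a) (5 * b) && adB (5 * b) (5 * c) &&
        adB (5 * c) (5 * d) && adB (5 * d) (5 * e) && adB (5 * e) (5 * f) && adB (5 * f) (5 * a))
        (!(Nat.beq (labN (a + 4 * b + 16 * c + 64 * d + 256 * e + 1024 * f))
          (labN (b + 4 * c + 16 * d + 64 * e + 256 * f + 1024 * a)))))))

theorem chkS_true : chkS = true := by decide +kernel

/-- the class of a column -/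
def lab (h : Fin 6 → Fin 4) : ℕ :=
  labN ((h 0).val + 4 * (h 1).val + 16 * (h 2).val + 64 * (h 3).val + 256 * (h 4).val +
    1024 * (h 5).val)

/-- possible letters at the same slot -/
def Ct (a b : Fin 4) : Prop :=
  ¬ (a = 1 ∧ b = 2) ∧ ¬ (a = 1 ∧ b = 3) ∧ ¬ (a = 2 ∧ b = 1) ∧ ¬ (a = 3 ∧ b = 1)

/-- possible pairs of letters at neighbouring slots -/
def AdjOK (a b a' b' : Fin 4) : Prop :=
  a ≠ a' ∧ b ≠ b' ∧ ¬ (a ≠ b ∧ a = b' ∧ b = a' ∧ ¬ ((a = 2 ∧ b = 3) ∨ (a = 3 ∧ b = 2)))

/-- possible pairs of letters at opposite slots -/
def OpOK (a b a' b' : Fin 4) : Prop :=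
  ¬ ((a = 2 ∨ b = 2) ∧ (a' = 3 ∨ b' = 3)) ∧ ¬ ((a = 3 ∨ b = 3) ∧ (a' = 2 ∨ b' = 2))

instance (a b : Fin 4) : Decidable (Ct a b) := by unfold Ct; infer_instance
instance (a b a' b' : Fin 4) : Decidable (AdjOK a b a' b') := by unfold AdjOK; infer_instance
instance (a b a' b' : Fin 4) : Decidable (OpOK a b a' b') := by unfold OpOK; infer_instance

def cp (a b : Fin 4) : ℕ := 4 * a.val + b.val

theorem mem_prs : ∀ a b : Fin 4, Ct a b → cp a b ∈ prs := by decide

theorem mem_nx : ∀ a b a' b' : Fin 4, Ct a b → Ct a' b' → AdjOK a b a' b' →
    cp a' b' ∈ nx (cp a b) := by decide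

theorem adB_of : ∀ a b a' b' : Fin 4, Ct a b → Ct a' b' → AdjOK a b a' b' →
    adB (cp a b) (cp a' b') = true := by decide

theorem opB_of : ∀ a b a' b' : Fin 4, Ct a b → Ct a' b' → OpOK a b a' b' →
    opB (cp a b) (cp a' b') = true := by decide

theorem cp_div (a b : Fin 4) : cp a b / 4 = a.val := by
  unfold cp; have := b.isLt; omega

theorem cp_mod (a b : Fin 4) : cp a b % 4 = b.val := by
  unfold cp; have := b.isLt; omega

theorem imp_mp {b c : Bool} (h : imp b c = true) (hb : b = true) : c = true := by
  subst hb; exact h

/-- **ties**: the class does not change -/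
theorem tie (h h' : Fin 6 → Fin 4) (ct : ∀ j, Ct (h j) (h' j))
    (adj : ∀ j, AdjOK (h j) (h' j) (h (j + 1)) (h' (j + 1)))
    (op : ∀ j, OpOK (h j) (h' j) (h (j + 3)) (h' (j + 3))) : lab h = lab h' := by
  have k0 := List.all_eq_true.1 chk_true _ (mem_prs _ _ (ct 0))
  have k1 := List.all_eq_true.1 k0 _ (mem_nx _ _ _ _ (ct 0) (ct 1) (adj 0))
  have k2 := List.all_eq_true.1 k1 _ (mem_nx _ _ _ _ (ct 1) (ct 2) (adj 1))
  have k3 := List.all_eq_true.1 k2 _ (mem_nx _ _ _ _ (ct 2) (ct 3) (adj 2))
  have k4 := List.all_eq_true.1 (imp_mp k3 (opB_of _ _ _ _ (ct 0) (ct 3) (op 0))) _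
    (mem_nx _ _ _ _ (ct 3) (ct 4) (adj 3))
  have k5 := List.all_eq_true.1 (imp_mp k4 (opB_of _ _ _ _ (ct 1) (ct 4) (op 1))) _
    (mem_nx _ _ _ _ (ct 4) (ct 5) (adj 4))
  have k6 := imp_mp (imp_mp k5 (opB_of _ _ _ _ (ct 2) (ct 5) (op 2)))
    (adB_of _ _ _ _ (ct 5) (ct 0) (adj 5))
  have k7 := Nat.eq_of_beq_eq_true k6
  unfold codA codB at k7
  simp only [cp_div, cp_mod] at k7
  exact k7

theorem mem4 (a : Fin 4) : a.val ∈ [0, 1, 2, 3] := by
  revert a; decide

theorem adB_leg : ∀ a b : Fin 4, a ≠ b → adB (5 * a.val) (5 * b.val) = true := by decide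

theorem opB_leg : ∀ a b : Fin 4, ¬ (a = 2 ∧ b = 3) → ¬ (a = 3 ∧ b = 2) →
    opB (5 * a.val) (5 * b.val) = true := by decide

/-- **rotation**: the class changes -/
theorem rot (h : Fin 6 → Fin 4) (adj : ∀ j, h j ≠ h (j + 1))
    (op : ∀ j, ¬ (h j = 2 ∧ h (j + 3) = 3)) : lab (fun j => h (j + 1)) ≠ lab h := by
  have op' : ∀ j, ¬ (h j = 3 ∧ h (j + 3) = 2) := by
    intro j hj
    refine op (j + 3) ⟨hj.2, ?_⟩
    have e : j + 3 + 3 = j := by
      rw [add_assoc]; exact add_zero j
    rw [e]; exact hj.1
  have k := List.all_eq_true.1 (List.all_eq_true.1 (List.all_eq_true.1 (List.all_eq_true.1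
    chkS_true _ (mem4 (h 0))) _ (mem4 (h 1))) _ (mem4 (h 2))) _ (mem4 (h 3))
  have k1 := List.all_eq_true.1 (imp_mp k (opB_leg _ _ (op 0) (op' 0))) _ (mem4 (h 4))
  have k2 := List.all_eq_true.1 (imp_mp k1 (opB_leg _ _ (op 1) (op' 1))) _ (mem4 (h 5))
  have g0 : adB (5 * (h 0).val) (5 * (h 1).val) = true := adB_leg _ _ (adj 0)
  have g1 : adB (5 * (h 1).val) (5 * (h 2).val) = true := adB_leg _ _ (adj 1)
  have g2 : adB (5 * (h 2).val) (5 * (h 3).val) = true := adB_leg _ _ (adj 2)
  have g3 : adB (5 * (h 3).val) (5 * (h 4).val) = true := adB_leg _ _ (adj 3)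
  have g4 : adB (5 * (h 4).val) (5 * (h 5).val) = true := adB_leg _ _ (adj 4)
  have g5 : adB (5 * (h 5).val) (5 * (h 0).val) = true := adB_leg _ _ (adj 5)
  have k3 := imp_mp (imp_mp k2 (opB_leg _ _ (op 2) (op' 2))) (by
    rw [g0, g1, g2, g3, g4, g5]; rfl)
  intro h0
  have e : lab h = labN ((h 0).val + 4 * (h 1).val + 16 * (h 2).val + 64 * (h 3).val +
    256 * (h 4).val + 1024 * (h 5).val) := rfl
  have e' : lab (fun j => h (j + 1)) = labN ((h 1).val + 4 * (h 2).val + 16 * (h 3).val +
    64 * (h 4).val + 256 * (h 5).val + 1024 * (h 0).val) := rfl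
  rw [← e, ← e', h0] at k3
  simp at k3

end Vale.Agent.P032.H98
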